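import Vale.Agent.P281.H64.TU.Spec
import Vale.Agent.P281.H713.SA.T5

/-! P281, project T-U, block U3' (helper383): Hermitian metrics give admissible tame slices. -/

open scoped Manifold ContDiff Topology ComplexConjugate ComplexOrder
open Set Filter Metric

noncomputable section

namespace Vale.Agent.P281.H383.U

open Vale.Agent.P281 Vale.Agent.P272.K Vale.Agent.P281.H64.TU

/-- The Hermitian form with matrix `A`. -/
def hf {n : ℕ} (A : Matrix (Fin n) (Fin n) ℂ) (u : Cm n) : ℂ := ∑ i, ∑ j, A i j * u i * conj (u j)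

theorem hf_eq {n : ℕ} (A : Matrix (Fin n) (Fin n) ℂ) (u : Cm n) :
    hf A u = u ⬝ᵥ A.mulVec (star u) := by
  simp only [hf, dotProduct, Matrix.mulVec, Finset.mul_sum]
  refine Finset.sum_congr rfl fun i _ => Finset.sum_congr rfl fun j _ => ?_
  simp only [Pi.star_apply, RCLike.star_def]
  ring

theorem hf_change {n : ℕ} (B J : Matrix (Fin n) (Fin n) ℂ) (u : Cm n) :
    hf (J.transpose * B * J.map (starRingEnd ℂ)) u = hf B (J.mulVec u) := by
  rw [hf_eq, hf_eq, ← Matrix.mulVec_mulVec, ← Matrix.mulVec_mulVec, Matrix.dotProduct_mulVec,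
    Matrix.vecMul_transpose]
  congr 2
  funext i
  simp only [Matrix.mulVec, dotProduct, Matrix.map_apply, Pi.star_apply, RCLike.star_def, map_sum,
    map_mul]

theorem hf_smul {n : ℕ} (A : Matrix (Fin n) (Fin n) ℂ) (a : ℝ) (u : Cm n) :
    hf A ((a : ℂ) • u) = (a : ℂ) ^ 2 * hf A u := by
  simp only [hf, Finset.mul_sum]
  refine Finset.sum_congr rfl fun i _ => Finset.sum_congr rfl fun j _ => ?_
  simp only [Pi.smul_apply, smul_eq_mul, map_mul, Complex.conj_ofReal]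
  ring

theorem hf_pos {n : ℕ} {A : Matrix (Fin n) (Fin n) ℂ} (hA : A.PosDef) {u : Cm n} (hu : u ≠ 0) :
    0 < (hf A u).re := by
  rw [hf_eq]
  have h1 : star u ≠ 0 := by
    intro h0
    apply hu
    have := congrArg star h0
    simpa using this
  have h2 := hA.dotProduct_mulVec_pos h1
  rw [star_star] at h2
  exact (Complex.lt_def.1 h2).1

/-- A lower bound, near a point. -/
theorem hf_lower {n : ℕ} {A : Cm n → Matrix (Fin n) (Fin n) ℂ} {c₀ : Cm n}
    (hA : ∀ i j, ContinuousAt (fun c => A c i j) c₀) (hp : (A c₀).PosDef) :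
    ∃ m : ℝ, 0 < m ∧ ∀ᶠ c in 𝓝 c₀, ∀ u : Cm n, m * ‖u‖ ^ 2 ≤ (hf (A c) u).re := by
  have hc : Continuous fun u : Cm n => (hf (A c₀) u).re := by
    unfold hf
    fun_prop
  obtain ⟨m₀, hm₀, hmin⟩ : ∃ m₀ : ℝ, 0 < m₀ ∧ ∀ u ∈ sphere (0 : Cm n) 1, m₀ ≤ (hf (A c₀) u).re := by
    rcases (sphere (0 : Cm n) 1).eq_empty_or_nonempty with h0 | h0
    · exact ⟨1, one_pos, fun u hu => absurd hu (by rw [h0]; simp)⟩
    · obtain ⟨u₀, hu₀, hmin⟩ := (isCompact_sphere (0 : Cm n) 1).exists_isMinOn h0 hc.continuousOn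
      refine ⟨(hf (A c₀) u₀).re, hf_pos hp ?_, fun u hu => hmin hu⟩
      intro h1
      rw [h1] at hu₀
      simp at hu₀
  refine ⟨m₀ / 2, half_pos hm₀, ?_⟩
  have hs : ContinuousAt (fun c => ∑ i, ∑ j, ‖A c i j - A c₀ i j‖) c₀ := by
    refine tendsto_finsetSum _ fun i _ => tendsto_finsetSum _ fun j _ => ?_
    exact ((hA i j).sub continuousAt_const).norm
  have hev : ∀ᶠ c in 𝓝 c₀, ∑ i, ∑ j, ‖A c i j - A c₀ i j‖ < m₀ / 2 := by
    refine hs.eventually_lt_const ?_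
    simpa using hm₀
  filter_upwards [hev] with c hcs u
  -- the unit sphere
  have key : ∀ u ∈ sphere (0 : Cm n) 1, m₀ / 2 ≤ (hf (A c) u).re := by
    intro u hu
    have hu1 : ‖u‖ = 1 := by simpa using hu
    have hui : ∀ i, ‖u i‖ ≤ 1 := fun i => hu1 ▸ norm_le_pi_norm u i
    have h1 : ‖hf (A c) u - hf (A c₀) u‖ ≤ ∑ i, ∑ j, ‖A c i j - A c₀ i j‖ := by
      unfold hf
      rw [← Finset.sum_sub_distrib]
      refine (norm_sum_le _ _).trans (Finset.sum_le_sum fun i _ => ?_)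
      rw [← Finset.sum_sub_distrib]
      refine (norm_sum_le _ _).trans (Finset.sum_le_sum fun j _ => ?_)
      have h2 : A c i j * u i * conj (u j) - A c₀ i j * u i * conj (u j) =
          (A c i j - A c₀ i j) * (u i * conj (u j)) := by ring
      rw [h2, norm_mul, norm_mul, Complex.norm_conj]
      have h3 : ‖u i‖ * ‖u j‖ ≤ 1 := by
        have := mul_le_mul (hui i) (hui j) (norm_nonneg _) zero_le_one
        simpa using this
      calc ‖A c i j - A c₀ i j‖ * (‖u i‖ * ‖u j‖) ≤ ‖A c i j - A c₀ i j‖ * 1 := by gcongr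
        _ = ‖A c i j - A c₀ i j‖ := mul_one _
    have h4 : |(hf (A c) u).re - (hf (A c₀) u).re| ≤ ‖hf (A c) u - hf (A c₀) u‖ := by
      rw [← Complex.sub_re]
      exact Complex.abs_re_le_norm _
    have h5 := hmin u hu
    have h6 := abs_le.1 (h4.trans (h1.trans hcs.le))
    linarith [h6.1]
  by_cases hu0 : u = 0
  · subst hu0
    simp [hf]
  · have hun : 0 < ‖u‖ := norm_pos_iff.2 hu0
    have h1 : ((‖u‖⁻¹ : ℝ) : ℂ) • u ∈ sphere (0 : Cm n) 1 := by
      rw [mem_sphere_zero_iff_norm, norm_smul, Complex.norm_real, norm_inv, norm_norm,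
        inv_mul_cancel₀ hun.ne']
    have h2 := key _ h1
    rw [hf_smul] at h2
    have h3 : (((‖u‖⁻¹ : ℝ) : ℂ) ^ 2 * hf (A c) u).re = ‖u‖⁻¹ ^ 2 * (hf (A c) u).re := by
      rw [← Complex.ofReal_pow, Complex.re_ofReal_mul]
    rw [h3] at h2
    have h4 : ‖u‖ ^ 2 * (‖u‖⁻¹ ^ 2 * (hf (A c) u).re) = (hf (A c) u).re := by
      field_simp
    calc m₀ / 2 * ‖u‖ ^ 2 = ‖u‖ ^ 2 * (m₀ / 2) := mul_comm _ _
      _ ≤ ‖u‖ ^ 2 * (‖u‖⁻¹ ^ 2 * (hf (A c) u).re) := by gcongr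
      _ = (hf (A c) u).re := h4

/-- **U3'** -/
theorem tameOK : TameOKStmt := by
  intro n d X _ _ _ w hw y z₀ P hy
  set φ : Chart n X := chartAt (Cm n) z₀ with hφ
  have hφa : φ ∈ atlas (Cm n) X := chart_mem_atlas _ _
  have hsm : ∀ i j, ContinuousAt (fun c => w φ c i j) (φ y) := fun i j =>
    (hw.smooth φ y ⟨hφa, hy⟩ i j).continuousAt
  obtain ⟨m, hm, hlow⟩ := hf_lower (A := fun c => w φ c) hsm (hw.posDef φ y ⟨hφa, hy⟩)
  have hφc : ContinuousAt φ y := φ.continuousAt hy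
  refine ⟨{z | z ∈ φ.source ∧ ∀ u : Cm n, m * ‖u‖ ^ 2 ≤ (hf (w φ (φ z)) u).re},
    (φ.open_source.eventually_mem hy).and (hφc.eventually hlow), (‖P‖ ^ 2 + 1) / m, by positivity, ?_⟩
  intro Q v₀ r hr hQ v hv e he ξ
  obtain ⟨hQv, ⟨hQs, hQl⟩, -⟩ := hQ v hv
  have hn : (ω : WithTop ℕ∞) ≠ 0 := by simp
  have hAt : At φ (Q v) := ⟨hφa, hQs⟩
  -- the slice in the chart `φ`
  have hd : DifferentiableAt ℂ (fun u => φ (Q u)) v := by
    have h1 : ContMDiffAt 𝓘(ℂ, Cm n) 𝓘(ℂ, Cm n) ω φ (Q v) :=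
      contMDiffAt_of_mem_maximalAtlas (IsManifold.chart_mem_maximalAtlas z₀) hQs
    have h2 : ContMDiffAt 𝓘(ℂ, Cm d) 𝓘(ℂ, Cm n) ω (fun u => φ (Q u)) v :=
      ContMDiffAt.comp v h1 hQv
    exact (contMDiffAt_iff_contDiffAt.1 h2).differentiableAt hn
  set D : Cm d →L[ℂ] Cm n := fderiv ℂ (fun u => φ (Q u)) v with hD
  have hPD : P (D ξ) = ξ := by
    have h1 : HasFDerivAt (fun u => P (φ (Q u))) (P.comp D) v :=
      P.hasFDerivAt.comp v hd.hasFDerivAt
    have h2 : (fun u => P (φ (Q u))) =ᶠ[𝓝 v] fun u => u := by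
      filter_upwards [isOpen_ball.mem_nhds hv] with u hu using (hQ u hu).2.2
    have h3 : HasFDerivAt (fun u : Cm d => u) (P.comp D) v := h1.congr_of_eventuallyEq h2.symm
    have h4 := h3.unique (hasFDerivAt_id v)
    exact congrArg (fun L : Cm d →L[ℂ] Cm d => L ξ) h4
  -- the change of chart
  have hde : fderiv ℂ (fun u => e (Q u)) v ξ = (jacM φ e (Q v)).mulVec (D ξ) := by
    have h1 : DifferentiableAt ℂ (fun w => e (φ.symm w)) (φ (Q v)) :=
      (INT.transition_contDiffAt hAt he).differentiableAt (by simp)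
    have h2 : (fun u => e (Q u)) =ᶠ[𝓝 v] fun u => e (φ.symm (φ (Q u))) := by
      filter_upwards [hQv.continuousAt.eventually (φ.open_source.eventually_mem hQs)] with u hu
      rw [φ.left_inv hu]
    have h3 : HasFDerivAt (fun u => e (φ.symm (φ (Q u))))
        ((fderiv ℂ (fun w => e (φ.symm w)) (φ (Q v))).comp D) v :=
      HasFDerivAt.comp (g := fun w => e (φ.symm w)) v h1.hasFDerivAt hd.hasFDerivAt
    rw [h2.fderiv_eq, h3.fderiv, ContinuousLinearMap.comp_apply]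
    funext q
    simp only [Matrix.mulVec, dotProduct]
    have h4 : ∀ i, jacM φ e (Q v) q i =
        fderiv ℂ (fun w => e (φ.symm w)) (φ (Q v)) (Pi.single i 1) q := fun i =>
      H713.SA.jacM_apply hAt he q i
    simp only [h4]
    conv_lhs => rw [← Finset.univ_sum_single (D ξ)]
    rw [map_sum, Finset.sum_apply]
    refine Finset.sum_congr rfl fun i _ => ?_
    have h5 : (Pi.single i (D ξ i) : Cm n) = (D ξ i) • (Pi.single i 1 : Cm n) := by
      rw [← Pi.single_smul, smul_eq_mul, mul_one]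
    rw [h5, map_smul, Pi.smul_apply, smul_eq_mul, mul_comm]
  have hform : hf (w e (e (Q v))) (fderiv ℂ (fun u => e (Q u)) v ξ) =
      hf (w φ (φ (Q v))) (D ξ) := by
    rw [hde, ← hf_change, ← hw.change φ e (Q v) hAt he]
  show ‖ξ‖ ^ 2 ≤ (‖P‖ ^ 2 + 1) / m * (hf (w e (e (Q v))) (fderiv ℂ (fun u => e (Q u)) v ξ)).re
  rw [hform]
  have h1 : ‖ξ‖ ≤ ‖P‖ * ‖D ξ‖ := by
    have := P.le_opNorm (D ξ)
    rwa [hPD] at this
  calc ‖ξ‖ ^ 2 ≤ (‖P‖ * ‖D ξ‖) ^ 2 := by gcongr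
    _ ≤ (‖P‖ ^ 2 + 1) * ‖D ξ‖ ^ 2 := by
        rw [mul_pow]
        nlinarith [sq_nonneg ‖D ξ‖]
    _ = (‖P‖ ^ 2 + 1) / m * (m * ‖D ξ‖ ^ 2) := by field_simp
    _ ≤ (‖P‖ ^ 2 + 1) / m * (hf (w φ (φ (Q v))) (D ξ)).re := by
        gcongr
        exact hQl (D ξ)

end Vale.Agent.P281.H383.U
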