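import Vale.Agent.P281.H383.U.Core
import Vale.Agent.P281.H383.U.Tame
import Vale.Agent.P281.H413.TZ.Gen
import Vale.Agent.P281.H342.TZ.Slice
import Vale.Agent.P281.H431.Lin
import Vale.Agent.P281.H498.TZ.PoleZ

/-! P281, project T-U, block U3 (helper383): the final statement. -/

open scoped Manifold ContDiff Topology
open Set Filter Metric Vale.Agent.P281 Vale.Agent.P272.K
open Vale.Agent.P281.MF Vale.Agent.P281.ISO Vale.Agent.P281.ELL Vale.Agent.P281.H713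
open Vale.Agent.P281.H713.TZ Vale.Agent.P281.H64.Gen Vale.Agent.P281.H64.TU

noncomputable section

namespace Vale.Agent.P281.H383.U

section
variable {n : ℕ} {X : Type} [TopologicalSpace X] [ChartedSpace (Cm n) X]

theorem isBigOpen_id [IsManifold 𝓘(ℂ, Cm n) ω X] : J.IsBigOpen (Cm n) (id : X → X) := by
  refine ⟨contMDiff_id, Topology.IsOpenEmbedding.id, fun z => ?_, fun x => ?_⟩
  · rw [mfderiv_id]
    exact Function.injective_id
  · refine ⟨fun _ => 1, contMDiffAt_const, fun h => ?_, Eventually.of_forall fun z => ⟨fun h => ?_,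
      fun h => absurd h one_ne_zero⟩⟩
    · exact one_ne_zero h.self_of_nhds
    · exact absurd (mem_range_self z) h

omit [ChartedSpace (Cm n) X] in
theorem isRestriction_id (Δ : Set X → ℝ) : J.IsRestriction (id : X → X) Δ Δ :=
  ⟨fun D _ => rfl, fun D' h => ⟨D', h, rfl⟩⟩

end

/-- `kodGE_U` without the inputs. -/
theorem kodGE_allU {n p : ℕ} {X Z Y : Type} [TopologicalSpace X] [T2Space X] [ConnectedSpace X]
    [ChartedSpace (Cm n) X] [IsManifold 𝓘(ℂ, Cm n) ω X]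
    [TopologicalSpace Z] [ChartedSpace (Cm n) Z]
    [IsManifold 𝓘(ℂ, Cm n) ω Z] [TopologicalSpace Y] [T2Space Y] [ChartedSpace (Cm p) Y]
    [IsManifold 𝓘(ℂ, Cm p) ω Y]
    {E₁ : Type} [NormedAddCommGroup E₁] [NormedSpace ℂ E₁] [FiniteDimensional ℂ E₁]
    {𝒯 : Tame E₁ Z} (h𝒯 : TameOK (n := n) 𝒯) {j : Z → X} (hj : J.IsBigOpen (Cm n) j) {f : Z → Y}
    (hf : ContMDiff 𝓘(ℂ, Cm n) 𝓘(ℂ, Cm p) ω f)
    {S : Set Y} (hS : IsSmallSet (Cm p) S)
    (hsub : ∀ x, f x ∉ S → Function.Surjective (dM (Cm n) (Cm p) f x))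
    (e₀ : Cm n ≃L[ℂ] (Cm p × E₁))
    {Δ : Set X → ℝ} (hsnc : J.IsSNC (Cm n) Δ)
    {Δ' : Set Z → ℝ} (hsnc' : J.IsSNC (Cm n) Δ') (hΔ : J.IsRestriction j Δ Δ') {r : ℕ}
    (hform : ∀ y, y ∉ S → HasFormsT 𝒯 f S e₀ Δ' r y) {j₂ : ℕ}
    (h₂ : KodFGE n p Δ j f j₂) :
    KodGE (Cm n) (fun (D : Set X) z g => IsLocalEq (Cm n) D g z) Δ (j₂ + r) :=
  kodGE_U h𝒯 H413.TZ.genPart H342.TZ.slicePart H431.linPart H498.poleZPart hj hf hS hsub e₀
    hsnc hsnc' hΔ hform h₂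

/-- **U3** -/
theorem liftT : LiftTStmt := by
  intro n p X Y E₁ _ _ _ _ _ _ _ _ _ _ _ _ T f S e₀ Δ r j₂ hT hf hS hsub hsnc hform h₂
  exact kodGE_allU hT isBigOpen_id hf hS hsub e₀ hsnc hsnc (isRestriction_id Δ) hform h₂

end Vale.Agent.P281.H383.U
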