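import Vale.Agent.P281.H64.TU.Spec

/-! P281, project T-U, block U3 (helper383): products of relative forms which are bounded on the tame
slices of the fibres. -/

open scoped Manifold ContDiff Topology
open Set Filter Metric Asymptotics

namespace Vale.Agent.P281.H64.TU

open Vale.Agent.P281 Vale.Agent.P281.MF Vale.Agent.P281.ISO Vale.Agent.P281.ELL
open Vale.Agent.P281.H713 Vale.Agent.P281.H64.TU

set_option linter.unusedSectionVars false

section RelForm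

variable {E E' E₀ : Type} [NormedAddCommGroup E] [NormedSpace ℂ E] [FiniteDimensional ℂ E]
  [NormedAddCommGroup E'] [NormedSpace ℂ E'] [FiniteDimensional ℂ E']
  [NormedAddCommGroup E₀] [NormedSpace ℂ E₀] [FiniteDimensional ℂ E₀]
variable {X Y : Type} [TopologicalSpace X] [ChartedSpace E X] [IsManifold 𝓘(ℂ, E) ω X]
  [TopologicalSpace Y] [ChartedSpace E' Y] [IsManifold 𝓘(ℂ, E') ω Y]
variable {T : Tame E₀ X}
variable {f : X → Y} {S : Set Y} {e₀ : E ≃L[ℂ] (E' × E₀)} {𝒜 : Set (Set X)}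

theorem RelFormT.mul {N N' : ℕ}
    {κ κ' : Set X → ℕ} {Θ Θ' : X → ℂ}
    (h : RelFormT T f S e₀ N 𝒜 κ Θ) (h' : RelFormT T f S e₀ N' 𝒜 κ' Θ') :
    RelFormT T f S e₀ (N + N') 𝒜 (fun D => κ D + κ' D) (fun x => Θ x * Θ' x) where
  hol := by
    intro x₀ x y₀ hx hx₀ hy₀ T e hT he
    obtain ⟨H, hH, hHe⟩ := h.hol x₀ x y₀ hx hx₀ hy₀ T e (fun D hD => hT D (by omega)) he
    obtain ⟨H', hH', hHe'⟩ := h'.hol x₀ x y₀ hx hx₀ hy₀ T e (fun D hD => hT D (by omega)) he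
    refine ⟨fun z => H z * H' z, hH.mul hH', ?_⟩
    filter_upwards [hHe, hHe'] with z hz hz' hzA hz0
    simp only [pow_add, Finset.prod_mul_distrib] at hz0 ⊢
    have h1 := hz hzA (left_ne_zero_of_mul hz0)
    have h2 := hz' hzA (right_ne_zero_of_mul hz0)
    linear_combination (jac E' (chartAt E' y₀) (f z) ^ N' * Θ' z * ∏ D ∈ T, e D z ^ κ' D) * h1 +
      (H z * jac E (chartAt E x₀) z ^ N) * h2
  bound := by
    intro r K hr hK
    obtain ⟨C, hC⟩ := h.bound r K hr hK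
    obtain ⟨C', hC'⟩ := h'.bound r K hr hK
    refine ⟨C * C', fun v₀ Q h0 h1 h2 h3 h4 h5 P h6 => ?_⟩
    have h7 := hC v₀ Q h0 h1 h2 h3 h4 h5 P h6
    have h8 := hC' v₀ Q h0 h1 h2 h3 h4 h5 P h6
    have h9 := mul_le_mul h7 h8 (norm_nonneg _) ((norm_nonneg _).trans h7)
    rw [← norm_mul] at h9
    refine h9.trans (le_of_eq ?_)
    rw [pow_add, norm_mul]
    ring

theorem relFormT_one :
    RelFormT T f S e₀ 0 𝒜 (fun _ => 0) (fun _ => 1) where
  hol := by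
    intro x₀ x y₀ hx hx₀ hy₀ T e hT he
    exact ⟨fun _ => 1, HolV.const (1 : ℂ) x, Filter.Eventually.of_forall fun z _ _ => by simp⟩
  bound := by
    intro r K hr hK
    exact ⟨1, fun v₀ Q _ _ _ _ _ _ P _ => by simp⟩

theorem RelFormT.congr {N N' : ℕ} {κ κ' : Set X → ℕ} {Θ Θ' : X → ℂ}
    (h : RelFormT T f S e₀ N 𝒜 κ Θ) (hN : N = N') (hκ : ∀ D, κ D = κ' D) (hΘ : ∀ x, Θ x = Θ' x) :
    RelFormT T f S e₀ N' 𝒜 κ' Θ' := by
  subst hN
  have h1 : κ = κ' := funext hκ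
  have h2 : Θ = Θ' := funext hΘ
  rw [← h1, ← h2]; exact h

theorem RelFormT.pow {N : ℕ} {κ : Set X → ℕ}
    {Θ : X → ℂ} (h : RelFormT T f S e₀ N 𝒜 κ Θ) (a : ℕ) :
    RelFormT T f S e₀ (N * a) 𝒜 (fun D => a * κ D) (fun x => Θ x ^ a) := by
  induction a with
  | zero => exact relFormT_one.congr (by simp) (fun D => by simp) (fun x => by simp)
  | succ a ih =>
    exact (ih.mul h).congr (by ring) (fun D => by ring) (fun x => by rw [pow_succ])

theorem RelFormT.mono {N : ℕ}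
    {κ κ' : Set X → ℕ} {Θ : X → ℂ} (h : RelFormT T f S e₀ N 𝒜 κ Θ)
    (hκ : ∀ D, κ D ≤ κ' D) : RelFormT T f S e₀ N 𝒜 κ' Θ where
  hol := by
    intro x₀ x y₀ hx hx₀ hy₀ T e hT he
    obtain ⟨H, hH, hHe⟩ := h.hol x₀ x y₀ hx hx₀ hy₀ T e
      (fun D hD => hT D (by have := hκ D; omega)) he
    refine ⟨fun z => H z * ∏ D ∈ T, e D z ^ (κ' D - κ D),
      hH.mul (HolV.prod fun D hD => ((he D hD).holAt).pow _), ?_⟩
    filter_upwards [hHe] with z hz hzA hz0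
    have h1 : ∏ D ∈ T, e D z ^ κ' D = (∏ D ∈ T, e D z ^ κ D) * ∏ D ∈ T, e D z ^ (κ' D - κ D) := by
      rw [← Finset.prod_mul_distrib]
      refine Finset.prod_congr rfl fun D _ => ?_
      rw [← pow_add]
      congr 1
      have := hκ D
      omega
    rw [h1] at hz0 ⊢
    have h2 := hz hzA (left_ne_zero_of_mul hz0)
    linear_combination (∏ D ∈ T, e D z ^ (κ' D - κ D)) * h2
  bound := h.bound

/-- enlarging `S`. -/
theorem RelFormT.sub {S' : Set Y} (hSS : S ⊆ S')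
    {N : ℕ} {κ₀ : Set X → ℕ} {Θ : X → ℂ} (h : RelFormT T f S e₀ N 𝒜 κ₀ Θ) :
    RelFormT T f S' e₀ N 𝒜 κ₀ Θ where
  hol := fun x₀ x y₀ hx => h.hol x₀ x y₀ fun h1 => hx (hSS h1)
  bound := by
    intro r K hr hK
    obtain ⟨C, hC⟩ := h.bound r K hr hK
    exact ⟨C, fun v₀ Q h0 h1 h2 h3 h4 h5 P h6 =>
      hC v₀ Q h0 h1 h2 (fun h7 => h3 (hSS h7)) h4 h5 P h6⟩

end RelForm

end Vale.Agent.P281.H64.TU
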